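import Crest.Agent.N76.II.AV.Bad

/-! # Row 76, leaf AV (helper98). -/

set_option autoImplicit false

open MeasureTheory Set Metric
open scoped ENNReal RealInnerProductSpace

namespace Crest.Agent.N76.II

open Crest.Agent.N76.Red (V)
open Crest.Agent.N76.G
open AV

theorem av (d : ℕ) : AV d := by
  classical
  set v := (volume (ball (0 : V d) 1)).toReal with hv
  have hv0 : 0 < v := ENNReal.toReal_pos (measure_ball_pos volume _ one_pos).ne'
    measure_ball_lt_top.ne
  set w := (volume (ball (0 : V d × ℝ) 1)).toReal with hw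
  have hw0 : 0 < w := ENNReal.toReal_pos (measure_ball_pos volume _ one_pos).ne'
    measure_ball_lt_top.ne
  have hI := II0_nonneg d
  have he := Real.exp_pos 2
  set C : ℝ := Real.exp 2 + Real.exp 2 * Real.exp 2 * (6 * 2 ^ d) / v +
    12 * II0 d * 62 ^ d * 2 ^ d * 32 ^ (d + 1) / w with hC
  have c1 : 0 ≤ Real.exp 2 * Real.exp 2 * (6 * 2 ^ d) / v := by positivity
  have c2 : 0 ≤ 12 * II0 d * 62 ^ d * 2 ^ d * 32 ^ (d + 1) / w := by positivity
  have hC1 : Real.exp 2 ≤ C := by linarith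
  have hC2 : Real.exp 2 * Real.exp 2 * (6 * 2 ^ d) / v ≤ C := by linarith
  have hC3 : 12 * II0 d * 62 ^ d * 2 ^ d * 32 ^ (d + 1) / w ≤ C := by linarith
  refine ⟨C, (Real.one_le_exp (by norm_num)).trans hC1, ?_⟩
  intro Λ W K C₁ Mx r r' r'' t₁ l R τ φ aj Dm hK hC₁ hΛ hΛ' hM hW hr'' hr''r hr''l hr' hr'l hlR hτ hφ
    haj hD0 hD hla ι X p hX
  have hWc : ∀ ζ ∈ Λ, Continuous (W ζ) := fun ζ hζ => (hW ζ hζ).1
  have hl : 0 < l := by linarith
  have hR : 0 < R := by linarith
  have hr : 0 < r := by linarith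
  have haj0 : 0 < aj := by linarith
  have hcb : ∀ s : ℝ, 0 ≤ s → (volume (closedBall (0 : V d) s)).toReal = s ^ d * v := fun s hs => by
    rw [Measure.addHaar_closedBall _ _ hs, finrank_euclideanSpace_fin, ENNReal.toReal_mul,
      ENNReal.toReal_ofReal (by positivity)]
  set a := τ * Mx * l with ha
  have ha0 : 0 < a := by positivity
  set Bad : Set (Ph d) := {β | C * lw Λ K (fun ζ => bavg (W ζ) r') (t₁ - r') (t₁ + l + r') β +
    C * a < lw Λ K W t₁ (t₁ + l) β} with hBad
  set P : ι → Prop := fun z => ∃ F : Finset (V d), (F.card : ℝ) ≤ φ * aj ^ d ∧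
    ∀ β ∈ Bad, ‖β.2‖ ≤ 3 → ‖pos (p z).2 β - (p z).1‖ ≤ Dm → ∃ ζ ∈ F, ‖β.2 - ζ‖ ≤ 1 / aj with hP
  refine ⟨Bad, X.filter fun z => ¬ P z, ?_, ?_, fun z hz hzE => ?_, fun β hβ _ => ?_⟩
  · refine (isOpen_lt ?_ (continuous_lw hWc _ _ _)).measurableSet
    exact (continuous_const.mul (continuous_lw (fun ζ hζ => continuous_bavg (hWc ζ hζ) r')
      _ _ _)).add continuous_const
  rotate_left
  · by_contra h
    exact hzE (Finset.mem_filter.2 ⟨hz, h⟩)
  · simp only [hBad, mem_ofPred_eq, not_lt] at hβ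
    refine hβ.trans (le_of_eq ?_)
    rw [ha]; ring
  set S := SS Λ K W C₁ a (30 * R) r' t₁ (t₁ + l) with hS
  have hSm : MeasurableSet S := measurableSet_SS hWc _ _ _ _ _ _
  have hSv := vol_SS hW (by linarith : 0 < K) hM.le (a := a) (ρ := 30 * R) (ρ' := 62 * R)
    (t₁ := t₁) hC₁ hΛ (by positivity) hr' hl (by linarith)
  rw [hcb _ (by positivity), ← hS] at hSv
  set η := r'' / 32 with hη
  have hη0 : 0 < η := by positivity
  -- richness
  have hrich : ∀ z ∈ X.filter fun z => ¬ P z, ∀ u ∈ ball (p z) η,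
      ENNReal.ofReal (φ * v / 2 ^ d) ≤ volume {ξ : V d | lin u ξ ∈ S} := fun z hz u hu => by
    obtain ⟨hzX, hz⟩ := Finset.mem_filter.1 hz
    obtain ⟨hx, ht1, ht2⟩ := hX z hzX
    obtain ⟨F, hF1, hF2, hF3⟩ := exists_sep_net
      {ξ | ∃ β ∈ Bad, ‖β.2‖ ≤ 3 ∧ ‖pos (p z).2 β - (p z).1‖ ≤ Dm ∧ β.2 = ξ}
      (by rintro ξ ⟨β, -, h, -, rfl⟩; exact h) (δ := 1 / aj) (by positivity)
    have hcard : φ * aj ^ d < F.card := by
      by_contra h
      exact hz ⟨F, not_lt.1 h, fun β h1 h2 h3 => hF3 _ ⟨β, h1, h2, h3, rfl⟩⟩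
    have hu1 : ‖u.1 - (p z).1‖ < η := by
      rw [← dist_eq_norm]; exact (le_max_left _ _).trans_lt (mem_ball.1 hu)
    have hu2 : |u.2 - (p z).2| < η := by
      rw [← Real.dist_eq]; exact (le_max_right _ _).trans_lt (mem_ball.1 hu)
    have h1 := card_mul_le volume F id (δ := 1 / (2 * aj)) (fun c hc c' hc' hne => by
        have := hF2 c hc c' hc' hne
        rw [show 2 * (1 / (2 * aj)) = 1 / aj by field_simp]
        exact this) (g := fun _ => 1) (m := ENNReal.ofReal ((1 / (2 * aj)) ^ d * v))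
      (fun c _ => by
        rw [setLIntegral_one, Measure.addHaar_ball_of_pos _ _ (by positivity),
          finrank_euclideanSpace_fin, ENNReal.ofReal_mul (by positivity), hv,
          ENNReal.ofReal_toReal measure_ball_lt_top.ne])
      (U := {ξ : V d | lin u ξ ∈ S}) (fun c hc ξ hξ => by
        obtain ⟨β, hβ, hβ3, hβD, rfl⟩ := hF1 c hc
        have hξ' : ‖β.2 - ξ‖ ≤ 1 / (2 * aj) := by
          rw [norm_sub_rev, ← dist_eq_norm]; exact (mem_ball.1 hξ).le
        have h2aj : 1 / (2 * aj) ≤ 1 / 2 := by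
          rw [div_le_div_iff₀ (by positivity) (by positivity)]; linarith
        have hξ4 : ‖ξ‖ ≤ 4 := by
          have := norm_sub_norm_le ξ β.2
          rw [norm_sub_rev] at this
          linarith
        refine mem_SS hW hr (by linarith) hΛ' ha0.le (by positivity) hr' (by linarith) hC1 ?_ hβ3
          (le_of_lt hβ) (fun t ht => ?_) ?_ (fun t ht => ?_)
        · rw [hcb _ (by positivity)]
          rw [div_le_iff₀ hv0] at hC2
          calc _ = (Real.exp 2 * Real.exp 2 * (6 * 2 ^ d)) * (r' / 2) ^ d := by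
                rw [div_pow]; field_simp
            _ ≤ (C * v) * (r' / 2) ^ d := by gcongr
            _ = _ := by ring
        · have e1 : pos t (β - lin u ξ) = (pos (p z).2 β - (p z).1) - (u.1 - (p z).1)
              - (2 * (t - (p z).2)) • (β.2 - ξ) - (2 * (u.2 - (p z).2)) • ξ := by
            rw [pos_sub, pos_lin']
            simp only [pos, mul_sub, sub_smul, smul_sub]
            abel
          have b1 : |t - (p z).2| ≤ l := by
            rw [abs_le]; constructor <;> linarith [ht.1, ht.2]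
          have b2 : ‖(2 * (t - (p z).2)) • (β.2 - ξ)‖ ≤ l / aj := by
            rw [norm_smul, Real.norm_eq_abs, abs_mul, abs_two]
            calc _ ≤ 2 * l * (1 / (2 * aj)) := by gcongr
              _ = _ := by field_simp
          have b3 : ‖(2 * (u.2 - (p z).2)) • ξ‖ ≤ 2 * η * 4 := by
            rw [norm_smul, Real.norm_eq_abs, abs_mul, abs_two]
            gcongr
          rw [e1]
          refine (norm_sub_le _ _).trans ((add_le_add (norm_sub_le _ _) le_rfl).trans ?_)
          have := norm_sub_le (pos (p z).2 β - (p z).1) (u.1 - (p z).1)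
          linarith
        · change K * ‖β.2 - ξ‖ ≤ 1
          calc _ ≤ aj * (1 / (2 * aj)) := by gcongr
            _ = 1 / 2 := by field_simp
            _ ≤ 1 := by norm_num
        · rw [pos_lin']
          have b1 : |t - u.2| ≤ l + η := by
            rw [abs_lt] at hu2
            rw [abs_le]; constructor <;> linarith [ht.1, ht.2]
          have b2 : ‖(2 * (t - u.2)) • ξ‖ ≤ 2 * (l + η) * 4 := by
            rw [norm_smul, Real.norm_eq_abs, abs_mul, abs_two]
            gcongr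
          have b3 := norm_sub_norm_le u.1 (p z).1
          have := norm_sub_le u.1 ((2 * (t - u.2)) • ξ)
          linarith)
    rw [setLIntegral_one] at h1
    refine le_trans ?_ h1
    rw [← ENNReal.ofReal_natCast, ← ENNReal.ofReal_mul (Nat.cast_nonneg _)]
    refine ENNReal.ofReal_le_ofReal ?_
    calc φ * v / 2 ^ d = φ * aj ^ d * ((1 / (2 * aj)) ^ d * v) := by
          rw [div_pow, mul_pow, one_pow]; field_simp
      _ ≤ _ := by gcongr
  obtain ⟨T, hT1, hT2, hT3⟩ := exists_net (X.filter fun z => ¬ P z) p hr''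
  refine ⟨T.image p, ?_, fun z hz => ?_⟩
  swap
  · obtain ⟨c, hc, h⟩ := hT3 z hz
    exact ⟨p c, Finset.mem_image_of_mem p hc, h.le⟩
  refine (Nat.cast_le.2 Finset.card_image_le).trans ?_
  have h1 := card_le_of_rich hSm T p (η := η) (t₁ := t₁ - η) (t₂ := t₁ + l + η)
    (fun c hc c' hc' hne => le_trans (by linarith) (hT2 c hc c' hc' hne))
    (fun c hc => by
      obtain ⟨-, h1, h2⟩ := hX c (Finset.mem_filter.1 (hT1 hc)).1
      constructor <;> linarith)
    (fun c hc => hrich c (hT1 hc))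
  have h2 := (mul_le_mul' (le_refl (ENNReal.ofReal (a ^ 2))) h1).trans_eq (mul_left_comm _ _ _)
  have h3 := h2.trans (mul_le_mul' (ENNReal.ofReal_le_ofReal (show _ ≤ 2 * l by linarith)) hSv)
  rw [Measure.addHaar_ball_of_pos _ _ hη0, finrank_st,
    ← ENNReal.ofReal_toReal (measure_ball_lt_top.ne : volume (ball (0 : V d × ℝ) 1) ≠ ⊤), ← hw,
    ← ENNReal.ofReal_natCast, ← ENNReal.ofReal_mul (by positivity),
    ← ENNReal.ofReal_mul (by positivity), ← ENNReal.ofReal_mul (by positivity),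
    ← ENNReal.ofReal_mul (by positivity), ← ENNReal.ofReal_mul (by positivity),
    ENNReal.ofReal_le_ofReal_iff (by positivity)] at h3
  have hs : Real.sqrt (K * r' * l) = Real.sqrt (K * r' / l) * l := by
    rw [show K * r' * l = K * r' / l * l ^ 2 by field_simp, Real.sqrt_mul (by positivity),
      Real.sqrt_sq hl.le]
  rw [hs] at h3
  set s := Real.sqrt (K * r' / l) with hs'
  have hs0 : 0 ≤ s := Real.sqrt_nonneg _
  rw [le_div_iff₀ (by positivity)]
  calc (T.card : ℝ) * (τ ^ 2 * φ * r'' ^ (d + 1)) =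
        (a ^ 2 * (T.card * (φ * v / 2 ^ d * (η ^ (d + 1) * w)))) *
          (2 ^ d * 32 ^ (d + 1) / (w * v * Mx ^ 2 * l ^ 2)) := by
        rw [ha, hη, div_pow]; field_simp
    _ ≤ (2 * l * (6 * II0 d * C₁ ^ 2 * l * Mx ^ 2 * ((62 * R) ^ d * v) * (s * l))) *
          (2 ^ d * 32 ^ (d + 1) / (w * v * Mx ^ 2 * l ^ 2)) := by gcongr
    _ = (12 * II0 d * 62 ^ d * 2 ^ d * 32 ^ (d + 1) / w) * C₁ ^ 2 * s * R ^ d * l := by
        rw [mul_pow]; field_simp; ring
    _ ≤ _ := by gcongr

end Crest.Agent.N76.II
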