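import Crest.Agent.N76.II.AV.Good

/-! # Row 76, leaf AV: the set of lines with a large oscillation is small (helper98). -/

set_option autoImplicit false

open MeasureTheory Set Metric
open scoped ENNReal RealInnerProductSpace

namespace Crest.Agent.N76.II.AV

open Crest.Agent.N76.Red (V)
open Crest.Agent.N76.G

variable {d : ℕ}

/-- a continuous cutoff -/
noncomputable def cut (ρ : ℝ) (x : V d) : ℝ := max 0 (min 1 (2 - ‖x‖ / ρ))

lemma continuous_cut (ρ : ℝ) : Continuous (cut ρ : V d → ℝ) := by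
  unfold cut; fun_prop

lemma cut_nonneg (ρ : ℝ) (x : V d) : 0 ≤ cut ρ x := le_max_left _ _

lemma cut_le_one (ρ : ℝ) (x : V d) : cut ρ x ≤ 1 := max_le zero_le_one (min_le_left _ _)

lemma cut_eq_one {ρ : ℝ} (hρ : 0 < ρ) {x : V d} (hx : ‖x‖ ≤ ρ) : cut ρ x = 1 := by
  have : ‖x‖ / ρ ≤ 1 := (div_le_one hρ).2 hx
  rw [cut, min_eq_left (by linarith), max_eq_right zero_le_one]

lemma cut_eq_zero {ρ : ℝ} (hρ : 0 < ρ) {x : V d} (hx : 2 * ρ ≤ ‖x‖) : cut ρ x = 0 := by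
  have : 2 ≤ ‖x‖ / ρ := (le_div_iff₀ hρ).2 hx
  rw [cut, max_eq_left ((min_le_right _ _).trans (by linarith))]

/-- truncated weights -/
noncomputable def trn (W : V d → V d × ℝ → ℝ) (ρ : ℝ) (ζ : V d) (u : V d × ℝ) : ℝ :=
  W ζ u * cut ρ u.1

lemma continuous_trn {W : V d → V d × ℝ → ℝ} {ζ : V d} (hW : Continuous (W ζ)) (ρ : ℝ) :
    Continuous (trn W ρ ζ) := hW.mul ((continuous_cut ρ).comp continuous_fst)

lemma xray_trn {W : V d → V d × ℝ → ℝ} {ρ : ℝ} (hρ : 0 < ρ) (ζ : V d) {t₁ t₂ : ℝ} (ht : t₁ ≤ t₂)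
    {β : Ph d} (hβ : ∀ t ∈ Icc t₁ t₂, ‖pos t β‖ ≤ ρ) :
    xray (trn W ρ ζ) t₁ t₂ β = xray (W ζ) t₁ t₂ β := by
  refine intervalIntegral.integral_congr fun t htt => ?_
  rw [uIcc_of_le ht] at htt
  simp only [trn, cut_eq_one hρ (hβ t htt), mul_one]

variable {Λ : Finset (V d)} {W : V d → V d × ℝ → ℝ} {K Mx r : ℝ}

lemma lw_nonneg (h0 : ∀ ζ ∈ Λ, ∀ u, 0 ≤ W ζ u) {t₁ t₂ : ℝ} (ht : t₁ ≤ t₂) (β : Ph d) :
    0 ≤ lw Λ K W t₁ t₂ β :=
  Finset.sum_nonneg fun ζ hζ => mul_nonneg (Real.exp_pos _).le (xray_nonneg (h0 ζ hζ) ht β)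

lemma lw_close (hW : ∀ ζ ∈ Λ, Nice (W ζ) Mx r) (hr : 0 < r) (hK : 0 ≤ K) {t₁ t₂ : ℝ}
    (ht : t₁ ≤ t₂) {β β' : Ph d} (hc : ∀ t ∈ Icc t₁ t₂, ‖pos t (β - β')‖ ≤ r)
    (hd : K * ‖β.2 - β'.2‖ ≤ 1) : lw Λ K W t₁ t₂ β ≤ Real.exp 2 * lw Λ K W t₁ t₂ β' := by
  unfold lw
  rw [Finset.mul_sum]
  refine Finset.sum_le_sum fun ζ hζ => ?_
  have h1 := xray_close (hW ζ hζ) hr ht hc
  rw [div_self hr.ne'] at h1
  have h2 : Real.exp (-K * ‖β.2 - ζ‖) ≤ Real.exp 1 * Real.exp (-K * ‖β'.2 - ζ‖) := by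
    rw [← Real.exp_add, Real.exp_le_exp]
    have : ‖β'.2 - ζ‖ ≤ ‖β.2 - β'.2‖ + ‖β.2 - ζ‖ := by
      rw [norm_sub_rev β.2 β'.2]; exact norm_sub_le_norm_sub_add_norm_sub _ _ _
    nlinarith
  have h3 := xray_nonneg (fun u => ((hW ζ hζ).2.1 u).1) ht β
  calc _ ≤ (Real.exp 1 * Real.exp (-K * ‖β'.2 - ζ‖)) * (Real.exp 1 * xray (W ζ) t₁ t₂ β') :=
        mul_le_mul h2 h1 h3 (by positivity)
    _ = _ := by
        rw [show (2 : ℝ) = 1 + 1 by norm_num, Real.exp_add]; ring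

lemma continuous_lw_shift (hW : ∀ ζ ∈ Λ, Continuous (W ζ)) (t₁ t₂ : ℝ) (β : Ph d) :
    Continuous fun e : V d => lw Λ K W t₁ t₂ (β + (e, 0)) :=
  (continuous_lw hW K t₁ t₂).comp (by fun_prop)

lemma lw_avg_le (hW : ∀ ζ ∈ Λ, Nice (W ζ) Mx r) {r' t₁ t₂ : ℝ} (hr : 0 < r') (ht : t₁ ≤ t₂)
    (β : Ph d) (hβ : ‖β.2‖ ≤ 3) :
    ∫ e in closedBall (0 : V d) (r' / 2), lw Λ K W t₁ t₂ (β + (e, 0)) ≤
      6 * r' ^ d * lw Λ K (fun ζ => bavg (W ζ) r') (t₁ - r') (t₂ + r') β := by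
  unfold lw
  simp only [Prod.snd_add, add_zero]
  rw [integral_finsetSum _ fun ζ hζ => Integrable.const_mul
    ((continuous_xray_shift (hW ζ hζ).1 t₁ t₂ β).continuousOn.integrableOn_compact
      (isCompact_closedBall _ _)) _, Finset.mul_sum]
  refine Finset.sum_le_sum fun ζ hζ => ?_
  rw [integral_const_mul, mul_left_comm]
  exact mul_le_mul_of_nonneg_left
    (avg_le (hW ζ hζ).1 (fun u => ((hW ζ hζ).2.1 u).1) hr ht β hβ) (Real.exp_pos _).le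

/-- weighted square oscillation -/
noncomputable def Dv (Λ : Finset (V d)) (K : ℝ) (g : V d → V d × ℝ → ℝ) (t₁ t₂ : ℝ) (β : Ph d)
    (e : V d) : ℝ :=
  ∑ ζ ∈ Λ, kap K ζ β.2 * (xray (g ζ) t₁ t₂ β - xray (g ζ) t₁ t₂ (β + (e, 0))) ^ 2

lemma Dv_nonneg (g : V d → V d × ℝ → ℝ) (t₁ t₂ : ℝ) (β : Ph d) (e : V d) :
    0 ≤ Dv Λ K g t₁ t₂ β e :=
  Finset.sum_nonneg fun _ _ => mul_nonneg (Real.exp_pos _).le (sq_nonneg _)

lemma continuous_term {g : V d × ℝ → ℝ} (hg : Continuous g) (K : ℝ) (ζ : V d) (t₁ t₂ : ℝ) :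
    Continuous fun q : Ph d × V d =>
      kap K ζ q.1.2 * (xray g t₁ t₂ q.1 - xray g t₁ t₂ (q.1 + (q.2, 0))) ^ 2 := by
  have h1 := continuous_kap K ζ
  have h2 := continuous_xray hg t₁ t₂
  fun_prop

lemma continuous_Dv {g : V d → V d × ℝ → ℝ} (hg : ∀ ζ ∈ Λ, Continuous (g ζ)) (t₁ t₂ : ℝ) :
    Continuous fun q : Ph d × V d => Dv Λ K g t₁ t₂ q.1 q.2 :=
  continuous_finsetSum Λ fun ζ hζ => continuous_term (hg ζ hζ) K ζ t₁ t₂

/-- lines with a large oscillation -/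
def SS (Λ : Finset (V d)) (K : ℝ) (W : V d → V d × ℝ → ℝ) (C₁ a ρ r' t₁ t₂ : ℝ) : Set (Ph d) :=
  {β | ENNReal.ofReal (a ^ 2) * volume (closedBall (0 : V d) (r' / 2)) ≤
    ∫⁻ e in closedBall (0 : V d) (r' / 2), ENNReal.ofReal (C₁ * Dv Λ K (trn W ρ) t₁ t₂ β e)}

lemma measurable_D (hW : ∀ ζ ∈ Λ, Continuous (W ζ)) (C₁ ρ t₁ t₂ : ℝ) :
    Measurable fun q : Ph d × V d => ENNReal.ofReal (C₁ * Dv Λ K (trn W ρ) t₁ t₂ q.1 q.2) :=
  ENNReal.measurable_ofReal.comp (continuous_const.mul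
    (continuous_Dv (fun ζ hζ => continuous_trn (hW ζ hζ) ρ) t₁ t₂)).measurable

lemma measurableSet_SS (hW : ∀ ζ ∈ Λ, Continuous (W ζ)) (C₁ a ρ r' t₁ t₂ : ℝ) :
    MeasurableSet (SS Λ K W C₁ a ρ r' t₁ t₂) :=
  measurableSet_le measurable_const (measurable_D hW C₁ ρ t₁ t₂).lintegral_prod_right'

lemma vol_SS (hW : ∀ ζ ∈ Λ, Nice (W ζ) Mx r) (hK : 0 < K) (hM : 0 ≤ Mx) {C₁ a ρ ρ' r' t₁ l : ℝ}
    (hC : 0 ≤ C₁) (hΛ : (Λ.card : ℝ) ≤ C₁ * K ^ d) (hρ : 0 < ρ) (hr : 0 < r') (hl : 0 < l)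
    (hρ' : 2 * ρ + r' / 2 ≤ ρ') :
    ENNReal.ofReal (a ^ 2) * volume (SS Λ K W C₁ a ρ r' t₁ (t₁ + l)) ≤
      ENNReal.ofReal (6 * II0 d * C₁ ^ 2 * l * Mx ^ 2 * (volume (closedBall (0 : V d) ρ')).toReal *
        Real.sqrt (K * r' * l)) := by
  have hI := II0_nonneg d
  have hm := measurable_D (K := K) (fun ζ hζ => (hW ζ hζ).1) C₁ ρ t₁ (t₁ + l)
  set B := closedBall (0 : V d) (r' / 2) with hB
  set Q := l * (Mx * (volume (closedBall (0 : V d) ρ')).toReal *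
        (Mx * (2 * II0 d / K ^ d) * (3 * Real.sqrt (K * r' * l)))) with hQ
  have hQ0 : 0 ≤ Q := by positivity
  have h1 := mul_meas_ge_le_lintegral (μ := volume) (hm.lintegral_prod_right' (ν := volume.restrict B))
    (ENNReal.ofReal (a ^ 2) * volume B)
  have h2 : ∀ e ∈ B, ∫⁻ β, ENNReal.ofReal (C₁ * Dv Λ K (trn W ρ) t₁ (t₁ + l) β e) ≤
      ENNReal.ofReal (C₁ * (Λ.card * Q)) := fun e he => by
    rw [hB, mem_closedBall, dist_zero_right] at he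
    simp only [ENNReal.ofReal_mul hC]
    rw [lintegral_const_mul' _ _ ENNReal.ofReal_ne_top]
    refine mul_le_mul' le_rfl ?_
    unfold Dv
    simp only [ENNReal.ofReal_sum_of_nonneg fun ζ _ =>
      mul_nonneg (show 0 ≤ kap K ζ _ from (Real.exp_pos _).le) (sq_nonneg _)]
    rw [lintegral_finsetSum (f := fun ζ (β : Ph d) => ENNReal.ofReal (kap K ζ β.2 *
      (xray (trn W ρ ζ) t₁ (t₁ + l) β - xray (trn W ρ ζ) t₁ (t₁ + l) (β + (e, 0))) ^ 2)) _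
      fun ζ hζ => ENNReal.measurable_ofReal.comp
      ((continuous_term (continuous_trn (hW ζ hζ).1 ρ) K ζ t₁ (t₁ + l)).comp
        (Continuous.prodMk_left e)).measurable]
    refine (Finset.sum_le_card_nsmul _ _ (ENNReal.ofReal Q) fun ζ hζ => ?_).trans (le_of_eq ?_)
    · refine cordoba (continuous_trn (hW ζ hζ).1 ρ) (ρ := 2 * ρ) (fun u => ⟨mul_nonneg
        ((hW ζ hζ).2.1 u).1 (cut_nonneg _ _), ?_⟩) (fun x t hx => ?_) hK ζ e hl (by positivity)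
        (by nlinarith) (by linarith)
      · exact (mul_le_of_le_one_right ((hW ζ hζ).2.1 u).1 (cut_le_one _ _)).trans
          ((hW ζ hζ).2.1 u).2
      · simp only [trn, cut_eq_zero hρ hx, mul_zero]
    · rw [nsmul_eq_mul, ENNReal.ofReal_mul (Nat.cast_nonneg _), ENNReal.ofReal_natCast]
  rw [lintegral_lintegral_swap (f := fun β e =>
    ENNReal.ofReal (C₁ * Dv Λ K (trn W ρ) t₁ (t₁ + l) β e)) hm.aemeasurable] at h1
  have h3 := h1.trans (setLIntegral_mono' measurableSet_closedBall h2)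
  rw [setLIntegral_const, mul_right_comm] at h3
  have hB0 : volume B ≠ 0 := (measure_closedBall_pos volume _ (by positivity)).ne'
  refine ((ENNReal.mul_le_mul_iff_left hB0 measure_closedBall_lt_top.ne).1 h3).trans
    (ENNReal.ofReal_le_ofReal ?_)
  refine (mul_le_mul_of_nonneg_left (mul_le_mul_of_nonneg_right hΛ hQ0) hC).trans (le_of_eq ?_)
  rw [hQ]
  field_simp
  ring

/-- lines close to a bad line oscillate -/
lemma mem_SS (hW : ∀ ζ ∈ Λ, Nice (W ζ) Mx r) (hr : 0 < r) (hK : 0 ≤ K) {C C₁ a ρ r' t₁ t₂ : ℝ}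
    (hΛ : ∀ ξ : V d, ∑ ζ ∈ Λ, Real.exp (-K * ‖ξ - ζ‖) ≤ C₁) (ha : 0 ≤ a) (hρ : 0 < ρ)
    (hr' : 0 < r') (ht : t₁ ≤ t₂) (hC1 : Real.exp 2 ≤ C)
    (hC2 : Real.exp 2 * Real.exp 2 * (6 * r' ^ d) ≤
      C * (volume (closedBall (0 : V d) (r' / 2))).toReal)
    {β β' : Ph d} (hβ : ‖β.2‖ ≤ 3)
    (hbad : C * lw Λ K (fun ζ => bavg (W ζ) r') (t₁ - r') (t₂ + r') β + C * a ≤ lw Λ K W t₁ t₂ β)
    (hc : ∀ t ∈ Icc t₁ t₂, ‖pos t (β - β')‖ ≤ r) (hd : K * ‖β.2 - β'.2‖ ≤ 1)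
    (hin : ∀ t ∈ Icc t₁ t₂, ‖pos t β'‖ + r' / 2 ≤ ρ) : β' ∈ SS Λ K W C₁ a ρ r' t₁ t₂ := by
  have hWc : ∀ ζ ∈ Λ, Continuous (W ζ) := fun ζ hζ => (hW ζ hζ).1
  have hC : 0 ≤ C₁ := (Finset.sum_nonneg fun _ _ => (Real.exp_pos _).le).trans (hΛ 0)
  set B := closedBall (0 : V d) (r' / 2) with hB
  have hBc : IsCompact B := isCompact_closedBall _ _
  set v := (volume B).toReal with hv
  have hv0 : 0 ≤ v := ENNReal.toReal_nonneg
  set Lb := lw Λ K (fun ζ => bavg (W ζ) r') (t₁ - r') (t₂ + r') β with hLb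
  have hLb0 : 0 ≤ Lb := lw_nonneg (fun ζ hζ u =>
    bavg_nonneg (fun u => ((hW ζ hζ).2.1 u).1) hr'.le u) (by linarith) β
  have i1 : ∀ γ : Ph d, IntegrableOn (fun e : V d => lw Λ K W t₁ t₂ (γ + (e, 0))) B := fun γ =>
    (continuous_lw_shift hWc t₁ t₂ γ).continuousOn.integrableOn_compact hBc
  have i2 : IntegrableOn (fun e => C₁ * Dv Λ K (trn W ρ) t₁ t₂ β' e) B :=
    (continuous_const.mul ((continuous_Dv (fun ζ hζ => continuous_trn (hWc ζ hζ) ρ) t₁ t₂).comp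
      (Continuous.prodMk_right β'))).continuousOn.integrableOn_compact hBc
  have i3 : ∀ c : ℝ, IntegrableOn (fun _ : V d => c) B := fun c =>
    integrableOn_const measure_closedBall_lt_top.ne
  have h1 := lw_close hW hr hK ht hc hd
  have h2 : ∫ e in B, lw Λ K W t₁ t₂ (β' + (e, 0)) ≤ Real.exp 2 * (6 * r' ^ d * Lb) := by
    refine le_trans ?_ (mul_le_mul_of_nonneg_left (lw_avg_le hW hr' ht β hβ) (Real.exp_pos 2).le)
    rw [← integral_const_mul]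
    refine integral_mono (i1 β') ((i1 β).const_mul _) fun e => lw_close hW hr hK ht
      (fun t htt => ?_) ?_
    · rw [add_sub_add_right_eq_sub, pos_sub, norm_sub_rev, ← pos_sub]; exact hc t htt
    · simp only [Prod.snd_add, add_zero]; rwa [norm_sub_rev]
  have h3 : ∀ e ∈ B, 2 * a * (lw Λ K W t₁ t₂ β' - lw Λ K W t₁ t₂ (β' + (e, 0))) ≤
      a ^ 2 + C₁ * Dv Λ K (trn W ρ) t₁ t₂ β' e := fun e he => by
    rw [hB, mem_closedBall, dist_zero_right] at he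
    have e1 : lw Λ K W t₁ t₂ β' - lw Λ K W t₁ t₂ (β' + (e, 0)) = ∑ ζ ∈ Λ, kap K ζ β'.2 *
        (xray (trn W ρ ζ) t₁ t₂ β' - xray (trn W ρ ζ) t₁ t₂ (β' + (e, 0))) := by
      unfold lw
      rw [← Finset.sum_sub_distrib]
      refine Finset.sum_congr rfl fun ζ _ => ?_
      rw [xray_trn hρ ζ ht fun t htt => by linarith [hin t htt], xray_trn hρ ζ ht fun t htt => by
        rw [pos_shift]; linarith [hin t htt, norm_add_le (pos t β') e]]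
      simp only [Prod.snd_add, add_zero, kap]
      ring
    have e2 : (lw Λ K W t₁ t₂ β' - lw Λ K W t₁ t₂ (β' + (e, 0))) ^ 2 ≤
        C₁ * Dv Λ K (trn W ρ) t₁ t₂ β' e := by
      rw [e1]
      refine le_trans (Finset.sum_sq_le_sum_mul_sum_of_sq_le_mul Λ (f := fun ζ => kap K ζ β'.2)
        (g := fun ζ => kap K ζ β'.2 * (xray (trn W ρ ζ) t₁ t₂ β' -
          xray (trn W ρ ζ) t₁ t₂ (β' + (e, 0))) ^ 2)
        (fun _ _ => (Real.exp_pos _).le) (fun _ _ => mul_nonneg (Real.exp_pos _).le (sq_nonneg _))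
        fun ζ _ => le_of_eq (by ring))
        (mul_le_mul_of_nonneg_right (hΛ β'.2) (Dv_nonneg _ _ _ _ _))
    nlinarith [sq_nonneg (lw Λ K W t₁ t₂ β' - lw Λ K W t₁ t₂ (β' + (e, 0)) - a)]
  have h4 := setIntegral_mono_on (((i3 _).sub (i1 β')).const_mul _) ((i3 _).add i2)
    measurableSet_closedBall h3
  simp only [Pi.sub_apply, Pi.add_apply] at h4
  rw [integral_const_mul, integral_sub (i3 _) (i1 β'), integral_add (i3 _) i2, setIntegral_const,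
    setIntegral_const, smul_eq_mul, smul_eq_mul, Measure.real, ← hv] at h4
  have he := Real.exp_pos 2
  have h5 : v * a ≤ v * lw Λ K W t₁ t₂ β' - ∫ e in B, lw Λ K W t₁ t₂ (β' + (e, 0)) := by
    refine le_of_mul_le_mul_left ?_ he
    have k1 := mul_le_mul_of_nonneg_left (hbad.trans h1) hv0
    have k2 := mul_le_mul_of_nonneg_left h2 he.le
    have k3 := mul_le_mul_of_nonneg_right hC2 hLb0
    have k4 := mul_le_mul_of_nonneg_right hC1 (mul_nonneg hv0 ha)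
    nlinarith
  have h6 : a ^ 2 * v ≤ ∫ e in B, C₁ * Dv Λ K (trn W ρ) t₁ t₂ β' e := by
    nlinarith [mul_le_mul_of_nonneg_left h5 ha]
  change ENNReal.ofReal (a ^ 2) * volume B ≤ _
  rw [← ofReal_integral_eq_lintegral_ofReal i2
    (.of_forall fun e => mul_nonneg hC (Dv_nonneg _ _ _ _ _)),
    ← ENNReal.ofReal_toReal (measure_closedBall_lt_top.ne : volume B ≠ ⊤),
    ← ENNReal.ofReal_mul (sq_nonneg _)]
  exact ENNReal.ofReal_le_ofReal h6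

end Crest.Agent.N76.II.AV
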