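import Crest.Agent.N76.II.Dens

/-! # Row 76, leaf AV: Córdoba's `L²` argument without Fourier analysis (helper98). -/

set_option autoImplicit false

open MeasureTheory Set Metric
open scoped ENNReal RealInnerProductSpace

namespace Crest.Agent.N76.II.AV

open Crest.Agent.N76.Red (V)
open Crest.Agent.N76.G

variable {d : ℕ}

lemma mp_shear (t : ℝ) :
    MeasurePreserving (fun q : V d × V d => lin (q.1, t) q.2) volume volume := by
  have h1 : MeasurePreserving (fun p : V d × V d => (id p.1, p.2 + (2 * t) • p.1))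
      (volume.prod volume) (volume.prod volume) :=
    (MeasurePreserving.id volume).skew_product (g := fun a c => c + (2 * t) • a)
      (by unfold Function.uncurry; fun_prop)
      (.of_forall fun a => map_add_right_eq_self volume _)
  have h2 := (Measure.measurePreserving_swap.comp h1).comp
    (Measure.measurePreserving_swap (μ := (volume : Measure (V d))) (ν := (volume : Measure (V d))))
  exact h2

lemma continuous_shear (t : ℝ) : Continuous fun q : V d × V d => lin (q.1, t) q.2 := by
  unfold lin; fun_prop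

lemma integral_shear (t : ℝ) {f : Ph d → ℝ} (hf : Continuous f) :
    ∫ β, f β = ∫ q : V d × V d, f (lin (q.1, t) q.2) := by
  rw [← integral_map (continuous_shear t).aemeasurable hf.aestronglyMeasurable,
    (mp_shear t).map_eq]

lemma pos_lin' (u : V d × ℝ) (ξ : V d) (t : ℝ) :
    pos t (lin u ξ) = u.1 - (2 * (t - u.2)) • ξ := by
  simp only [pos, lin, mul_sub, sub_smul]; abel

lemma abs_xray_le {h : V d × ℝ → ℝ} {Mx : ℝ} (hb : ∀ u, |h u| ≤ Mx) {t₁ t₂ : ℝ} (ht : t₁ ≤ t₂)
    (β : Ph d) : |xray h t₁ t₂ β| ≤ Mx * (t₂ - t₁) := by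
  have := intervalIntegral.norm_integral_le_of_norm_le_const (a := t₁) (b := t₂) (C := Mx)
    (f := fun t => h (pos t β, t)) fun t _ => hb _
  rwa [abs_of_nonneg (by linarith : 0 ≤ t₂ - t₁)] at this

/-- the abstract `TT*` step -/
lemma cord_gen {h : V d × ℝ → ℝ} (hh : Continuous h) {Mx ρ : ℝ} (hb : ∀ u, |h u| ≤ Mx)
    (hρ : ∀ x t, ρ < ‖x‖ → h (x, t) = 0) {κ : V d → ℝ} (hκ : Continuous κ)
    (hκ0 : ∀ ξ, 0 ≤ κ ξ) (hκi : Integrable κ) {t₁ t₂ : ℝ} (ht : t₁ ≤ t₂) {G : ℝ}
    (hG : ∀ u : V d × ℝ, u.2 ∈ Icc t₁ t₂ → |∫ ξ, κ ξ * xray h t₁ t₂ (lin u ξ)| ≤ G) :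
    Integrable (fun β : Ph d => κ β.2 * xray h t₁ t₂ β ^ 2) ∧
    ∫ β : Ph d, κ β.2 * xray h t₁ t₂ β ^ 2 ≤
      (t₂ - t₁) * (Mx * (volume (closedBall (0 : V d) ρ)).toReal * G) := by
  have hM : 0 ≤ Mx := (abs_nonneg _).trans (hb 0)
  set Φ := xray h t₁ t₂ with hΦ
  have hΦc : Continuous Φ := continuous_xray hh t₁ t₂
  have hΦb : ∀ β, |Φ β| ≤ Mx * (t₂ - t₁) := abs_xray_le hb ht
  set F : ℝ → Ph d → ℝ := fun t β => κ β.2 * Φ β * h (pos t β, t) with hF
  have hFc : Continuous (Function.uncurry F) := by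
    simp only [hF]; unfold Function.uncurry pos; fun_prop
  have hFt : ∀ t, Continuous (F t) := fun t => hFc.comp (Continuous.prodMk_right t)
  set ind : V d → ℝ := (closedBall (0 : V d) ρ).indicator fun _ => Mx with hind
  have hindi : Integrable ind :=
    (integrable_indicator_iff measurableSet_closedBall).2
      (integrableOn_const measure_closedBall_lt_top.ne)
  have hhind : ∀ x t, |h (x, t)| ≤ ind x := fun x t => by
    by_cases hx : x ∈ closedBall (0 : V d) ρ
    · rw [hind, indicator_of_mem hx]; exact hb _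
    · rw [hind, indicator_of_notMem hx, hρ x t (by simpa using hx), abs_zero]
  have hmaj : Integrable (fun q : V d × V d => ind q.1 * (κ q.2 * (Mx * (t₂ - t₁))))
      (volume.prod volume) := hindi.mul_prod (hκi.mul_const _)
  have hsh : ∀ t (q : V d × V d), F t (lin (q.1, t) q.2) =
      h (q.1, t) * (κ q.2 * Φ (lin (q.1, t) q.2)) := fun t q => by
    have := pos_lin (q.1, t) q.2
    simp only at this
    simp only [hF, this]
    change κ q.2 * _ * _ = _
    ring
  have hbd : ∀ t (q : V d × V d), ‖F t (lin (q.1, t) q.2)‖ ≤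
      ind q.1 * (κ q.2 * (Mx * (t₂ - t₁))) := fun t q => by
    rw [hsh, Real.norm_eq_abs, abs_mul, abs_mul, abs_of_nonneg (hκ0 _)]
    exact mul_le_mul (hhind _ _) (mul_le_mul_of_nonneg_left (hΦb _) (hκ0 _))
      (mul_nonneg (hκ0 _) (abs_nonneg _))
      ((abs_nonneg _).trans (hhind q.1 t))
  have hi' : ∀ t, Integrable (fun q : V d × V d => F t (lin (q.1, t) q.2)) (volume.prod volume) :=
    fun t => hmaj.mono' ((hFt t).comp (continuous_shear t)).aestronglyMeasurable
      (.of_forall (hbd t))
  have hi : ∀ t, Integrable (F t) := fun t =>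
    ((mp_shear t).integrable_comp (hFt t).aestronglyMeasurable).1 (hi' t)
  have hjoint : Integrable (Function.uncurry F) ((volume.restrict (uIoc t₁ t₂)).prod volume) := by
    rw [integrable_prod_iff hFc.aestronglyMeasurable]
    refine ⟨.of_forall hi, ?_⟩
    have : IsFiniteMeasure (volume.restrict (uIoc t₁ t₂)) :=
      ⟨by rw [Measure.restrict_apply_univ, uIoc_of_le ht]; exact measure_Ioc_lt_top⟩
    refine Integrable.of_bound hFc.aestronglyMeasurable.norm.integral_prod_right'
      (∫ q : V d × V d, ind q.1 * (κ q.2 * (Mx * (t₂ - t₁)))) (.of_forall fun t => ?_)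
    rw [Real.norm_of_nonneg (integral_nonneg fun _ => norm_nonneg _)]
    change ∫ β, ‖F t β‖ ≤ _
    rw [integral_shear t (hFt t).norm]
    exact integral_mono (hi' t).norm hmaj (hbd t)
  have hid : ∀ β : Ph d, ∫ t in t₁..t₂, F t β = κ β.2 * Φ β ^ 2 := fun β => by
    simp only [hF]
    rw [intervalIntegral.integral_const_mul]
    change κ β.2 * Φ β * Φ β = _
    ring
  constructor
  · have := hjoint.integral_prod_right
    refine this.congr (.of_forall fun β => ?_)
    beta_reduce
    rw [← hid β, intervalIntegral.integral_of_le ht, uIoc_of_le ht]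
    rfl
  · simp only [← hid]
    rw [← intervalIntegral_integral_swap hjoint]
    have hle : ∀ t ∈ uIoc t₁ t₂, ‖∫ β, F t β‖ ≤
        Mx * (volume (closedBall (0 : V d) ρ)).toReal * G := fun t htt => by
      rw [uIoc_of_le ht] at htt
      rw [integral_shear t (hFt t), Measure.volume_eq_prod, integral_prod _ (hi' t)]
      have e : ∫ x, ind x * G = Mx * (volume (closedBall (0 : V d) ρ)).toReal * G := by
        rw [integral_mul_const, hind, integral_indicator measurableSet_closedBall,
          setIntegral_const, smul_eq_mul, Measure.real, mul_comm _ Mx]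
      rw [← e]
      refine norm_integral_le_of_norm_le (hindi.mul_const G) (.of_forall fun x => ?_)
      have hs' : ∀ ξ, F t (lin (x, t) ξ) = h (x, t) * (κ ξ * Φ (lin (x, t) ξ)) :=
        fun ξ => hsh t (x, ξ)
      simp only [hs']
      rw [integral_const_mul, Real.norm_eq_abs, abs_mul]
      exact mul_le_mul (hhind _ _) (hG (x, t) (Ioc_subset_Icc_self htt)) (abs_nonneg _)
        ((abs_nonneg _).trans (hhind x t))
    have := intervalIntegral.norm_integral_le_of_norm_le_const hle
    rw [abs_of_nonneg (by linarith : 0 ≤ t₂ - t₁), mul_comm] at this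
    exact (le_abs_self _).trans this

/-- the direction weight -/
noncomputable def kap (K : ℝ) (ζ ξ : V d) : ℝ := Real.exp (-K * ‖ξ - ζ‖)

/-- `∫ exp (-‖x‖)` -/
noncomputable def II0 (d : ℕ) : ℝ := ∫ x : V d, Real.exp (-‖x‖)

lemma II0_nonneg (d : ℕ) : 0 ≤ II0 d := integral_nonneg fun _ => (Real.exp_pos _).le

lemma continuous_kap (K : ℝ) (ζ : V d) : Continuous (kap K ζ) := by
  unfold kap; fun_prop

lemma integral_kap {K : ℝ} (hK : 0 < K) (ζ : V d) :
    Integrable (kap K ζ) ∧ ∫ ξ, kap K ζ ξ = II0 d / K ^ d := by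
  have h := B.integral_exp_neg_dist (volume : Measure (V d)) ζ (l := 1 / K) (by positivity)
  have e : (fun u : V d => Real.exp (-(dist u ζ / (1 / K)))) = kap K ζ := by
    funext u
    rw [kap, dist_eq_norm]
    congr 1
    field_simp
  rw [e] at h
  refine ⟨h.1, ?_⟩
  rw [h.2, finrank_euclideanSpace_fin, II0, one_div, inv_pow]
  ring

lemma abs_exp_sub_le {a b m : ℝ} (hm : |a - b| ≤ m) :
    |Real.exp (-a) - Real.exp (-b)| ≤ min 1 m * (Real.exp (-a) + Real.exp (-b)) := by
  have ha := Real.exp_pos (-a)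
  have hb := Real.exp_pos (-b)
  have key : ∀ x y : ℝ, |x - y| ≤ m → Real.exp (-x) - Real.exp (-y) ≤
      min 1 m * (Real.exp (-x) + Real.exp (-y)) := fun x y hxy => by
    have hx := Real.exp_pos (-x)
    have hy := Real.exp_pos (-y)
    have h1 : Real.exp (-y) = Real.exp (-x) * Real.exp (x - y) := by
      rw [← Real.exp_add]; congr 1; ring
    have h2 := Real.add_one_le_exp (x - y)
    have h3 := neg_abs_le (x - y)
    have h4 : 0 ≤ m := (abs_nonneg _).trans hxy
    rcases le_total 1 m with h | h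
    · rw [min_eq_left h]; linarith
    · rw [min_eq_right h]; nlinarith
  rw [abs_le]
  constructor
  · have := key b a (by rwa [abs_sub_comm])
    linarith
  · exact key a b hm

lemma integral_kap_sub_le {K : ℝ} (hK : 0 < K) (ζ v : V d) :
    ∫ ξ, |kap K ζ ξ - kap K ζ (ξ + v)| ≤ min 1 (K * ‖v‖) * (2 * II0 d / K ^ d) := by
  have h1 := integral_kap hK ζ
  have h2 : Integrable fun ξ => kap K ζ (ξ + v) := h1.1.comp_add_right v
  calc _ ≤ ∫ ξ, min 1 (K * ‖v‖) * (kap K ζ ξ + kap K ζ (ξ + v)) := by
        refine integral_mono (h1.1.sub h2).abs ((h1.1.add h2).const_mul _) fun ξ => ?_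
        simp only [kap, neg_mul]
        refine abs_exp_sub_le ?_
        rw [← mul_sub, abs_mul, abs_of_pos hK]
        refine mul_le_mul_of_nonneg_left ((abs_norm_sub_norm_le _ _).trans (le_of_eq ?_)) hK.le
        rw [show ξ - ζ - (ξ + v - ζ) = -v by abel, norm_neg]
    _ = _ := by
        rw [integral_const_mul, integral_add h1.1 h2, integral_add_right_eq_self (kap K ζ) v, h1.2]
        ring

/-- the bracket -/
lemma bracket_le {g : V d × ℝ → ℝ} (hg : Continuous g) {Mx : ℝ} (h0 : ∀ u, 0 ≤ g u ∧ g u ≤ Mx)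
    {K : ℝ} (hK : 0 < K) (ζ e x : V d) (t' : ℝ) {s : ℝ} (hs : s ≠ 0) :
    |∫ ξ, kap K ζ ξ * (g (x - (2 * s) • ξ, t') - g (x - (2 * s) • ξ + e, t'))| ≤
      Mx * (min 1 (K * (‖e‖ / (2 * |s|))) * (2 * II0 d / K ^ d)) := by
  have hM : 0 ≤ Mx := (h0 0).1.trans (h0 0).2
  have h1 := integral_kap hK ζ
  set v : V d := (2 * s)⁻¹ • e with hv
  have hb : ∀ (k : V d → ℝ) (y : V d), Integrable k →
      Integrable fun ξ => k ξ * g (x - (2 * s) • ξ + y, t') := fun k y hk =>
    hk.mul_bdd (c := Mx) (Continuous.aestronglyMeasurable (by fun_prop))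
      (.of_forall fun ξ => by rw [Real.norm_of_nonneg (h0 _).1]; exact (h0 _).2)
  have hb0 : ∀ (k : V d → ℝ), Integrable k →
      Integrable fun ξ => k ξ * g (x - (2 * s) • ξ, t') := fun k hk => by
    simpa using hb k 0 hk
  have h2 : Integrable fun ξ => kap K ζ (ξ + v) := h1.1.comp_add_right v
  have e1 : ∫ ξ, kap K ζ ξ * g (x - (2 * s) • ξ + e, t') =
      ∫ ξ, kap K ζ (ξ + v) * g (x - (2 * s) • ξ, t') := by
    rw [← integral_add_right_eq_self
      (fun ξ => kap K ζ ξ * g (x - (2 * s) • ξ + e, t')) v]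
    refine integral_congr_ae (.of_forall fun ξ => ?_)
    have : x - (2 * s) • (ξ + v) + e = x - (2 * s) • ξ := by
      rw [smul_add, hv, smul_inv_smul₀ (by simpa using hs)]; abel
    simp only [this]
  have e2 : ‖v‖ = ‖e‖ / (2 * |s|) := by
    rw [hv, norm_smul, norm_inv, Real.norm_eq_abs, abs_mul, abs_two, div_eq_inv_mul]
  simp only [mul_sub]
  rw [integral_sub (hb0 _ h1.1) (hb _ e h1.1), e1, ← integral_sub (hb0 _ h1.1) (hb0 _ h2), ← e2]
  refine le_trans ?_ (mul_le_mul_of_nonneg_left (integral_kap_sub_le hK ζ v) hM)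
  rw [← integral_const_mul]
  refine (abs_integral_le_integral_abs).trans (integral_mono
    ((hb0 _ h1.1).sub (hb0 _ h2)).abs ((h1.1.sub h2).abs.const_mul _) fun ξ => ?_)
  simp only
  rw [← sub_mul, abs_mul, abs_of_nonneg (h0 _).1, mul_comm Mx]
  exact mul_le_mul_of_nonneg_left (h0 _).2 (abs_nonneg _)

lemma xray_shift_sub {g : V d × ℝ → ℝ} (hg : Continuous g) (t₁ t₂ : ℝ) (e : V d) (β : Ph d) :
    xray g t₁ t₂ β - xray g t₁ t₂ (β + (e, 0)) =
      xray (fun u => g u - g (u.1 + e, u.2)) t₁ t₂ β := by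
  have e1 : ∀ t, pos t (β + (e, 0)) = pos t β + e := fun t => by
    simp only [pos, Prod.fst_add, Prod.snd_add, add_zero]; abel
  rw [xray, xray, xray, ← intervalIntegral.integral_sub
    ((continuous_line hg β).intervalIntegrable _ _)
    ((continuous_line hg _).intervalIntegrable _ _)]
  simp only [e1]

/-- **Córdoba** -/
lemma cordoba {g : V d × ℝ → ℝ} (hg : Continuous g) {Mx ρ : ℝ} (h0 : ∀ u, 0 ≤ g u ∧ g u ≤ Mx)
    (hρ : ∀ x t, ρ ≤ ‖x‖ → g (x, t) = 0) {K : ℝ} (hK : 0 < K) (ζ e : V d) {t₁ l a ρ' : ℝ}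
    (hl : 0 < l) (ha : 0 < a) (he : K * ‖e‖ ≤ 2 * a) (hρ' : ρ + ‖e‖ ≤ ρ') :
    ∫⁻ β : Ph d, ENNReal.ofReal (kap K ζ β.2 *
        (xray g t₁ (t₁ + l) β - xray g t₁ (t₁ + l) (β + (e, 0))) ^ 2) ≤
      ENNReal.ofReal (l * (Mx * (volume (closedBall (0 : V d) ρ')).toReal *
        (Mx * (2 * II0 d / K ^ d) * (3 * Real.sqrt (a * l))))) := by
  have hM : 0 ≤ Mx := (h0 0).1.trans (h0 0).2
  have hI := II0_nonneg d
  set h : V d × ℝ → ℝ := fun u => g u - g (u.1 + e, u.2) with hh
  have hhc : Continuous h := by simp only [hh]; fun_prop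
  have hhb : ∀ u, |h u| ≤ Mx := fun u => by
    rw [abs_le]; constructor <;> simp only [hh] <;> linarith [h0 u, h0 (u.1 + e, u.2)]
  have hhρ : ∀ x t, ρ' < ‖x‖ → h (x, t) = 0 := fun x t hx => by
    have h1 : ‖x‖ ≤ ‖x + e‖ + ‖e‖ := by
      simpa using norm_sub_le (x + e) e
    simp only [hh]
    rw [hρ x t (by linarith [norm_nonneg e]), hρ _ t (by linarith), sub_zero]
  have h1 := integral_kap hK ζ
  have ht : t₁ ≤ t₁ + l := by linarith
  set c := Mx * (2 * II0 d / K ^ d) with hc
  have hc0 : 0 ≤ c := by positivity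
  set δ := Real.sqrt (a * l) with hδ
  have hδ0 : 0 < δ := Real.sqrt_pos.2 (by positivity)
  have hδ2 : δ * δ = a * l := Real.mul_self_sqrt (by positivity)
  have key := cord_gen hhc hhb hhρ (continuous_kap K ζ) (fun _ => (Real.exp_pos _).le) h1.1 ht
    (G := c * (3 * δ)) (fun u hu => by
      set F : ℝ → V d → ℝ := fun t' ξ => kap K ζ ξ * h (u.1 - (2 * (t' - u.2)) • ξ, t') with hF
      have hFc : Continuous (Function.uncurry F) := by
        have := continuous_kap K ζ
        simp only [hF]; unfold Function.uncurry; fun_prop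
      have : IsFiniteMeasure (volume.restrict (uIoc t₁ (t₁ + l))) :=
        ⟨by rw [Measure.restrict_apply_univ, uIoc_of_le ht]; exact measure_Ioc_lt_top⟩
      have hFi : Integrable (Function.uncurry F)
          ((volume.restrict (uIoc t₁ (t₁ + l))).prod volume) := by
        refine ((integrable_const Mx).mul_prod h1.1).mono' hFc.aestronglyMeasurable
          (.of_forall fun q => ?_)
        simp only [hF, Function.uncurry]
        rw [Real.norm_eq_abs, abs_mul, abs_of_nonneg (show 0 ≤ kap K ζ q.2 from (Real.exp_pos _).le),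
          mul_comm]
        exact mul_le_mul_of_nonneg_right (hhb _) (Real.exp_pos _).le
      have e1 : ∀ ξ, kap K ζ ξ * xray h t₁ (t₁ + l) (lin u ξ) = ∫ t' in t₁..(t₁ + l), F t' ξ :=
        fun ξ => by
          simp only [hF, xray, pos_lin']
          rw [intervalIntegral.integral_const_mul]
      simp only [e1]
      rw [← intervalIntegral_integral_swap hFi, intervalIntegral.integral_of_le ht]
      set m : ℝ → ℝ := fun t' => c * ((closedBall u.2 δ).indicator (fun _ => 1) t' + a / δ) with hm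
      have hi1 : Integrable ((closedBall u.2 δ).indicator fun _ => (1 : ℝ)) :=
        (integrable_indicator_iff measurableSet_closedBall).2
          (integrableOn_const measure_closedBall_lt_top.ne)
      have hi2 : IntegrableOn (fun _ : ℝ => a / δ) (Ioc t₁ (t₁ + l)) :=
        integrableOn_const measure_Ioc_lt_top.ne
      have hmi : IntegrableOn m (Ioc t₁ (t₁ + l)) := (hi1.integrableOn.add hi2).const_mul c
      have hne : ∀ᵐ t' ∂(volume.restrict (Ioc t₁ (t₁ + l))), t' ≠ u.2 :=
        ae_restrict_of_ae (by simp [ae_iff])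
      rw [← Real.norm_eq_abs]
      refine (norm_integral_le_of_norm_le hmi ?_).trans ?_
      · filter_upwards [hne] with t' ht'
        have hs : t' - u.2 ≠ 0 := sub_ne_zero.2 ht'
        have := bracket_le hg h0 hK ζ e u.1 t' hs
        refine le_trans this ?_
        simp only [hm, hc]
        rw [mul_comm (min _ _), ← mul_assoc]
        refine mul_le_mul_of_nonneg_left ?_ hc0
        by_cases hb : t' ∈ closedBall u.2 δ
        · rw [indicator_of_mem hb]
          have : 0 ≤ a / δ := by positivity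
          linarith [min_le_left 1 (K * (‖e‖ / (2 * |t' - u.2|)))]
        · rw [indicator_of_notMem hb, zero_add]
          refine (min_le_right _ _).trans ?_
          rw [mem_closedBall, Real.dist_eq, not_le] at hb
          rw [← mul_div_assoc, div_le_div_iff₀ (by linarith) hδ0]
          nlinarith [mul_nonneg hK.le (norm_nonneg e)]
      · simp only [hm]
        rw [integral_const_mul, integral_add hi1.integrableOn hi2]
        refine mul_le_mul_of_nonneg_left ?_ hc0
        have a1 : ∫ t' in Ioc t₁ (t₁ + l), (closedBall u.2 δ).indicator (fun _ => (1 : ℝ)) t' ≤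
            2 * δ := by
          refine (setIntegral_le_integral hi1 (.of_forall fun t' =>
            indicator_nonneg (fun _ _ => zero_le_one) _)).trans (le_of_eq ?_)
          rw [integral_indicator measurableSet_closedBall, setIntegral_const, Measure.real,
            Real.volume_closedBall, ENNReal.toReal_ofReal (by positivity), smul_eq_mul, mul_one]
        have a2 : ∫ _ in Ioc t₁ (t₁ + l), a / δ = δ := by
          rw [setIntegral_const, Measure.real, Real.volume_Ioc,
            ENNReal.toReal_ofReal (by linarith), smul_eq_mul]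
          field_simp
          nlinarith
        linarith)
  simp only [xray_shift_sub hg]
  rw [← ofReal_integral_eq_lintegral_ofReal key.1
    (.of_forall fun β => mul_nonneg (Real.exp_pos _).le (sq_nonneg _))]
  refine ENNReal.ofReal_le_ofReal (key.2.trans (le_of_eq ?_))
  ring

end Crest.Agent.N76.II.AV
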