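import Crest.Agent.N76.II.AV.Cord
import Crest.Agent.N76.II.Net

/-! # Row 76, leaf AV: averaging over parallel lines, nets and covers (helper98). -/

set_option autoImplicit false

open MeasureTheory Set Metric
open scoped ENNReal RealInnerProductSpace

namespace Crest.Agent.N76.II.AV

open Crest.Agent.N76.Red (V)
open Crest.Agent.N76.G

variable {d : ℕ}

lemma pos_shift (t : ℝ) (β : Ph d) (e : V d) : pos t (β + (e, 0)) = pos t β + e := by
  simp only [pos, Prod.fst_add, Prod.snd_add, add_zero]; abel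

lemma ofReal_xray {W : V d × ℝ → ℝ} (hW : Continuous W) (h0 : ∀ u, 0 ≤ W u) {t₁ t₂ : ℝ}
    (ht : t₁ ≤ t₂) (β : Ph d) :
    ENNReal.ofReal (xray W t₁ t₂ β) = ∫⁻ t in Ioc t₁ t₂, ENNReal.ofReal (W (pos t β, t)) := by
  rw [xray, intervalIntegral.integral_of_le ht, ofReal_integral_eq_lintegral_ofReal
    ((continuous_line hW β).integrableOn_Icc.mono_set Ioc_subset_Icc_self)
    (.of_forall fun _ => h0 _)]

lemma continuous_xray_shift {W : V d × ℝ → ℝ} (hW : Continuous W) (t₁ t₂ : ℝ) (β : Ph d) :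
    Continuous fun e : V d => xray W t₁ t₂ (β + (e, 0)) :=
  (continuous_xray hW t₁ t₂).comp (by fun_prop)

/-- the average over parallel lines is dominated by the line integral of the ball average -/
lemma avg_le {W : V d × ℝ → ℝ} (hW : Continuous W) (h0 : ∀ u, 0 ≤ W u) {r' t₁ t₂ : ℝ}
    (hr : 0 < r') (ht : t₁ ≤ t₂) (β : Ph d) (hβ : ‖β.2‖ ≤ 3) :
    ∫ e in closedBall (0 : V d) (r' / 2), xray W t₁ t₂ (β + (e, 0)) ≤
      6 * r' ^ d * xray (bavg W r') (t₁ - r') (t₂ + r') β := by
  set H : ℝ → ℝ≥0∞ := fun σ => ∫⁻ e in closedBall (0 : V d) (r' / 2),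
    ENNReal.ofReal (W (pos σ β + e, σ)) with hH
  have hjm : Measurable fun q : ℝ × V d => ENNReal.ofReal (W (pos q.1 β + q.2, q.1)) := by
    refine ENNReal.measurable_ofReal.comp (Continuous.measurable ?_)
    unfold pos; fun_prop
  have hHm : Measurable H := hjm.lintegral_prod_right'
  have hWm : Measurable fun u => ENNReal.ofReal (W u) :=
    ENNReal.measurable_ofReal.comp hW.measurable
  -- step 1
  have s1 : ENNReal.ofReal (∫ e in closedBall (0 : V d) (r' / 2), xray W t₁ t₂ (β + (e, 0))) =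
      ∫⁻ σ in Ioc t₁ t₂, H σ := by
    rw [ofReal_integral_eq_lintegral_ofReal
      ((continuous_xray_shift hW t₁ t₂ β).continuousOn.integrableOn_compact
        (isCompact_closedBall _ _)) (.of_forall fun _ => xray_nonneg h0 ht _)]
    simp only [ofReal_xray hW h0 ht, pos_shift]
    exact (lintegral_lintegral_swap hjm.aemeasurable).symm
  -- step 2
  have s2 : ∀ t, ∫⁻ σ in closedBall t (r' / 12), H σ ≤
      ENNReal.ofReal (r' ^ (d + 1) * bavg W r' (pos t β, t)) := fun t => by
    rw [bavg, mul_div_cancel₀ _ (by positivity), ofReal_integral_eq_lintegral_ofReal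
      (hW.continuousOn.integrableOn_compact (isCompact_closedBall _ _))
      (.of_forall fun _ => h0 _), ← lintegral_indicator measurableSet_closedBall,
      ← lintegral_indicator measurableSet_closedBall, Measure.volume_eq_prod,
      lintegral_prod_symm _ (hWm.indicator measurableSet_closedBall).aemeasurable]
    refine lintegral_mono fun σ => ?_
    by_cases hσ : σ ∈ closedBall t (r' / 12)
    swap
    · rw [indicator_of_notMem hσ]; exact zero_le
    rw [indicator_of_mem hσ, ← lintegral_add_left_eq_self _ (pos σ β), hH]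
    simp only
    rw [← lintegral_indicator measurableSet_closedBall]
    refine lintegral_mono fun e => ?_
    by_cases he : e ∈ closedBall (0 : V d) (r' / 2)
    swap
    · rw [indicator_of_notMem he]; exact zero_le
    rw [indicator_of_mem he, indicator_of_mem]
    rw [mem_closedBall, Real.dist_eq] at hσ
    rw [mem_closedBall, dist_zero_right] at he
    rw [mem_closedBall, Prod.dist_eq, max_le_iff, Real.dist_eq, dist_eq_norm]
    refine ⟨?_, by simp only; linarith⟩
    have e1 : pos σ β + e - pos t β = e - (2 * (σ - t)) • β.2 := by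
      simp only [pos, mul_sub, sub_smul]; abel
    simp only
    rw [e1]
    refine (norm_sub_le _ _).trans ?_
    rw [norm_smul, Real.norm_eq_abs, abs_mul, abs_two]
    nlinarith [abs_nonneg (σ - t), norm_nonneg β.2]
  -- step 3
  have s3 : ENNReal.ofReal (r' / 6) * ∫⁻ σ in Ioc t₁ t₂, H σ ≤
      ∫⁻ t in Ioc (t₁ - r') (t₂ + r'), ∫⁻ σ in closedBall t (r' / 12), H σ := by
    have hm : Measurable fun q : ℝ × ℝ => (closedBall q.1 (r' / 12)).indicator H q.2 := by
      have : (fun q : ℝ × ℝ => (closedBall q.1 (r' / 12)).indicator H q.2) =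
          {q : ℝ × ℝ | dist q.2 q.1 ≤ r' / 12}.indicator fun q => H q.2 := by
        funext q; simp [indicator]
      rw [this]
      exact (hHm.comp measurable_snd).indicator
        (isClosed_le (by fun_prop) continuous_const).measurableSet
    simp only [← lintegral_indicator measurableSet_closedBall]
    rw [lintegral_lintegral_swap (f := fun t σ => (closedBall t (r' / 12)).indicator H σ)
      hm.aemeasurable, ← lintegral_const_mul _ hHm,
      ← lintegral_indicator measurableSet_Ioc]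
    refine lintegral_mono fun σ => ?_
    by_cases hσ : σ ∈ Ioc t₁ t₂
    swap
    · rw [indicator_of_notMem hσ]; exact zero_le
    rw [indicator_of_mem hσ]
    have e1 : (fun t => (closedBall t (r' / 12)).indicator H σ) =
        (closedBall σ (r' / 12)).indicator fun _ => H σ := by
      funext t; simp [indicator, dist_comm]
    rw [e1, lintegral_indicator measurableSet_closedBall, setLIntegral_const,
      Measure.restrict_apply measurableSet_closedBall, inter_eq_left.2, Real.volume_closedBall,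
      mul_comm]
    · exact le_of_eq (by congr 2; ring)
    · intro t htt
      rw [mem_closedBall, Real.dist_eq, abs_le] at htt
      constructor <;> linarith [hσ.1, hσ.2, htt.1, htt.2]
  have ht' : t₁ - r' ≤ t₂ + r' := by linarith
  have hb0 : ∀ u, 0 ≤ bavg W r' u := bavg_nonneg h0 hr.le
  have s4 : ∫⁻ t in Ioc (t₁ - r') (t₂ + r'), ENNReal.ofReal (r' ^ (d + 1) * bavg W r' (pos t β, t)) =
      ENNReal.ofReal (r' ^ (d + 1) * xray (bavg W r') (t₁ - r') (t₂ + r') β) := by
    rw [ENNReal.ofReal_mul (by positivity), ofReal_xray (continuous_bavg hW r') hb0 ht',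
      ← lintegral_const_mul' _ _ ENNReal.ofReal_ne_top]
    simp only [ENNReal.ofReal_mul (show 0 ≤ r' ^ (d + 1) by positivity)]
  have hx0 := xray_nonneg hb0 ht' β
  have s5 := s3.trans ((lintegral_mono fun t => s2 t).trans s4.le)
  rw [← s1, ← ENNReal.ofReal_mul (by positivity), ENNReal.ofReal_le_ofReal_iff (by positivity),
    pow_succ] at s5
  nlinarith

/-- a separated net of a bounded set of directions -/
lemma exists_sep_net (Θ : Set (V d)) (hΘ : ∀ ξ ∈ Θ, ‖ξ‖ ≤ 3) {δ : ℝ} (hδ : 0 < δ) :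
    ∃ F : Finset (V d), (∀ y ∈ F, y ∈ Θ) ∧ (∀ c ∈ F, ∀ c' ∈ F, c ≠ c' → δ ≤ dist c c') ∧
      ∀ ξ ∈ Θ, ∃ ζ ∈ F, ‖ξ - ζ‖ ≤ δ := by
  classical
  set P : ℕ → Prop := fun k => ∃ Y : Finset (V d), (∀ y ∈ Y, y ∈ Θ) ∧
    (∀ c ∈ Y, ∀ c' ∈ Y, c ≠ c' → δ ≤ dist c c') ∧ Y.card = k with hP
  obtain ⟨B, hB⟩ := exists_nat_ge ((2 * 3 / δ + 1) ^ d)
  have hle : ∀ k, P k → k ≤ B := by
    rintro k ⟨Y, h1, h2, rfl⟩
    have := card_le_of_sep_sp Y id 0 (by norm_num : (0 : ℝ) ≤ 3) hδ
      (fun c hc => by simpa using hΘ c (h1 c hc)) h2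
    exact_mod_cast this.trans hB
  have h0 : P 0 := ⟨∅, by simp, by simp, rfl⟩
  obtain ⟨Y, h1, h2, h3⟩ : P (Nat.findGreatest P B) := Nat.findGreatest_spec (Nat.zero_le _) h0
  refine ⟨Y, h1, h2, fun ξ hξ => ?_⟩
  by_contra hcon
  push Not at hcon
  have hxY : ξ ∉ Y := fun h => by have := hcon ξ h; simp at this; linarith
  have hP' : P (Y.card + 1) := by
    refine ⟨insert ξ Y, ?_, ?_, Finset.card_insert_of_notMem hxY⟩
    · intro y hy
      rcases Finset.mem_insert.1 hy with rfl | hy
      · exact hξ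
      · exact h1 y hy
    · intro c hc c' hc' hne
      rcases Finset.mem_insert.1 hc with e1 | e1
      · rcases Finset.mem_insert.1 hc' with e2 | e2
        · exact absurd (e1.trans e2.symm) hne
        · rw [dist_eq_norm, e1]; exact (hcon c' e2).le
      · rcases Finset.mem_insert.1 hc' with e2 | e2
        · rw [dist_comm, dist_eq_norm, e2]; exact (hcon c e1).le
        · exact h2 c e1 c' e2 hne
  have := Nat.le_findGreatest (hle _ hP') hP'
  omega

/-- disjoint balls -/
lemma card_mul_le {α ι : Type*} [PseudoMetricSpace α] [MeasurableSpace α] [OpensMeasurableSpace α]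
    (μ : Measure α) (F : Finset ι) (f : ι → α) {δ : ℝ}
    (hF : ∀ c ∈ F, ∀ c' ∈ F, c ≠ c' → 2 * δ ≤ dist (f c) (f c')) {g : α → ℝ≥0∞} {m : ℝ≥0∞}
    (hg : ∀ c ∈ F, m ≤ ∫⁻ x in ball (f c) δ, g x ∂μ) {U : Set α} (hU : ∀ c ∈ F, ball (f c) δ ⊆ U) :
    F.card * m ≤ ∫⁻ x in U, g x ∂μ := by
  calc (F.card : ℝ≥0∞) * m = ∑ _c ∈ F, m := by simp
    _ ≤ ∑ c ∈ F, ∫⁻ x in ball (f c) δ, g x ∂μ := Finset.sum_le_sum hg
    _ = ∫⁻ x in ⋃ c ∈ F, ball (f c) δ, g x ∂μ := by
        rw [lintegral_biUnion_finset (fun c hc c' hc' hne => ball_disjoint_ball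
          (by linarith [hF c hc c' hc' hne])) fun _ _ => measurableSet_ball]
    _ ≤ _ := lintegral_mono_set (iUnion₂_subset hU)

/-- points through which many lines of a small set pass are covered by few balls -/
lemma card_le_of_rich {S : Set (Ph d)} (hS : MeasurableSet S) {ι : Type*} (T : Finset ι)
    (p : ι → V d × ℝ) {η t₁ t₂ : ℝ} {m : ℝ≥0∞}
    (hT : ∀ c ∈ T, ∀ c' ∈ T, c ≠ c' → 2 * η ≤ dist (p c) (p c'))
    (ht : ∀ c ∈ T, t₁ + η ≤ (p c).2 ∧ (p c).2 + η ≤ t₂)
    (hm : ∀ c ∈ T, ∀ u ∈ ball (p c) η, m ≤ volume {ξ : V d | lin u ξ ∈ S}) :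
    T.card * (m * volume (ball (0 : V d × ℝ) η)) ≤ ENNReal.ofReal (t₂ - t₁) * volume S := by
  have hc : Continuous fun q : (V d × ℝ) × V d => lin q.1 q.2 := by unfold lin; fun_prop
  have hgm : Measurable fun u : V d × ℝ => volume {ξ : V d | lin u ξ ∈ S} :=
    measurable_measure_prodMk_left (hc.measurable hS)
  refine (card_mul_le volume T p hT (g := fun u => volume {ξ : V d | lin u ξ ∈ S})
    (U := univ ×ˢ Icc t₁ t₂) (fun c hc => ?_) (fun c hc u hu => ?_)).trans (le_of_eq ?_)
  · rw [← Measure.addHaar_ball_center volume (p c) η, ← setLIntegral_const]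
    exact setLIntegral_mono' measurableSet_ball (hm c hc)
  · have h1 : dist u.2 (p c).2 < η := (le_max_right _ _).trans_lt (mem_ball.1 hu)
    rw [Real.dist_eq, abs_lt] at h1
    exact ⟨mem_univ _, by linarith [(ht c hc).1], by linarith [(ht c hc).2]⟩
  · rw [Measure.volume_eq_prod, ← Measure.prod_restrict, Measure.restrict_univ,
      lintegral_prod_symm _ hgm.aemeasurable]
    have : ∀ t, ∫⁻ x : V d, volume {ξ : V d | lin (x, t) ξ ∈ S} = volume S := fun t => by
      rw [← (mp_shear t).measure_preimage hS.nullMeasurableSet, Measure.volume_eq_prod,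
        Measure.prod_apply ((continuous_shear t).measurable hS)]
      rfl
    simp only [this]
    rw [setLIntegral_const, Real.volume_Icc, mul_comm]

end Crest.Agent.N76.II.AV
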